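import Vale.Agent.P221.H377.McR
import Vale.Agent.P251.St.Result2

/-!
# P221: fp-spectra with missing residue classes

There is a stable homotopy category with a suspension spectrum functor; in each of them, for every
prime `p`, every `n ≥ 0`, every standard form `B` of the `p`-completed truncated Brown-Peterson
spectrum `BP⟨n⟩`, and every fp-spectrum `X` of fp-type at most `n`:

* if, in high degrees, the homotopy of `X` vanishes in `max(1, n - 1)` consecutive residue classes
  modulo `2p - 2` (for `n ≤ 2`: in one residue class), then `X` lies in the thick subcategory
  generated by `B`;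
* `X` lies in the thick subcategory generated by `B` if and only if it belongs to the class `Cls`:
  the smallest class which contains these spectra, the fp-spectra with sparse homotopy along a
  generalised Moore tower, and the fp-spectra which are modules over complex oriented ring spectra,
  and which is closed under the operations listed there.
-/

namespace Vale.Agent.Results.P221.MissingFp

open Vale.Agent.P251.St Vale.Agent.P251.St.SHCat Vale.Agent.P221.StM

theorem result : (∃ T : SHCat, Nonempty (Susp T)) ∧ ∀ (T : SHCat) (S : Susp T) (p n : ℕ), p.Prime →
    ∀ B X : T.C, IsStandardForm S p n B → Fp S p n X →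
      (∀ (D : ℤ → Prop) (a : ℤ), Per p D → (∀ i : ℕ, i < max 1 (n - 1) → ¬ D (a + i)) →
        Conc D X → ThickOf (fun Y => Y = B) X) ∧
      (ThickOf (fun Y => Y = B) X ↔ Cls S p n X) :=
  ⟨nonempty_susp, fun _ _ _ _ hp _ _ hB hX =>
    ⟨fun _ _ hD ha hC => Vale.Agent.P221.H377.M.thick_of_missing hp hB hX hD ha hC,
    Vale.Agent.P221.H377.M.thick_iff hp hB hX⟩⟩

end Vale.Agent.Results.P221.MissingFp
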